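import Mathlib

/-!
Derived `p`-complete abelian groups: the structure of a `ℤ_[p]`-module exists and is unique, and
the module is finitely generated when `A / p A` is finite.
-/

set_option autoImplicit false

namespace Vale.Agent.P261.H183

open Finset

/-- `Hom(ℤ[1/p], A) = 0`: the only infinitely `p`-divisible sequence is zero. -/
def Red (p : ℕ) (A : Type*) [AddCommGroup A] : Prop :=
  ∀ c : ℕ → A, (∀ i, c i = p • c (i + 1)) → ∀ i, c i = 0

/-- Derived `p`-complete abelian groups: `Hom(ℤ[1/p], A) = 0 = Ext(ℤ[1/p], A)`. -/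
def ExtC (p : ℕ) (A : Type*) [AddCommGroup A] : Prop :=
  ∀ a : ℕ → A, ∃! b : ℕ → A, ∀ i, b i = a i + p • b (i + 1)

variable {p : ℕ} {A : Type*} [AddCommGroup A]

lemma ExtC.red (h : ExtC p A) : Red p A := by
  intro c hc i
  obtain ⟨b, _, hb⟩ := h (fun _ => 0)
  have h1 := hb c (fun i => by rw [zero_add]; exact hc i)
  have h2 := hb (fun _ => 0) (fun i => by simp)
  rw [h1, ← h2]

variable [Fact p.Prime]

lemma zp_step (z : ℤ_[p]) : ∃ (n : ℕ) (w : ℤ_[p]), z = n + p * w := by
  obtain ⟨n, _, hn⟩ := PadicInt.exists_mem_range z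
  rw [PadicInt.maximalIdeal_eq_span_p, Ideal.mem_span_singleton] at hn
  obtain ⟨w, hw⟩ := hn
  exact ⟨n, w, by rw [← hw]; ring⟩

/-- Digits. -/
lemma zp_dig (z : ℤ_[p]) : ∃ (Z : ℕ → ℤ_[p]) (n : ℕ → ℤ), Z 0 = z ∧
    ∀ i, Z i = n i + p * Z (i + 1) := by
  choose n w hw using fun z : ℤ_[p] => zp_step z
  refine ⟨fun i => w^[i] z, fun i => n (w^[i] z), rfl, fun i => ?_⟩
  have h1 := hw (w^[i] z)
  simp only [Function.iterate_succ_apply', Int.cast_natCast]
  exact h1

/-- `ℤ_[p]` is derived complete (existence half). -/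
lemma zp_seq (n : ℕ → ℤ_[p]) : ∃ b : ℕ → ℤ_[p], ∀ i, b i = n i + p * b (i + 1) := by
  have hp : (1 : ℝ) < p := by exact_mod_cast (Fact.out : p.Prime).one_lt
  have hs : ∀ k, Summable (fun i => (p : ℤ_[p]) ^ i * n (i + k)) := by
    intro k
    apply Summable.of_norm_bounded (g := fun i => ((p : ℝ)⁻¹) ^ i)
    · exact summable_geometric_of_lt_one (by positivity) (inv_lt_one_of_one_lt₀ hp)
    · intro i
      rw [norm_mul, norm_pow, PadicInt.norm_p]
      calc ((p : ℝ)⁻¹) ^ i * ‖n (i + k)‖ ≤ ((p : ℝ)⁻¹) ^ i * 1 := by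
            gcongr
            exact PadicInt.norm_le_one _
        _ = _ := mul_one _
  refine ⟨fun k => ∑' i, (p : ℤ_[p]) ^ i * n (i + k), fun k => ?_⟩
  change ∑' i, (p : ℤ_[p]) ^ i * n (i + k) =
    n k + p * ∑' i, (p : ℤ_[p]) ^ i * n (i + (k + 1))
  rw [(hs k).tsum_eq_zero_add, ← (hs (k + 1)).tsum_mul_left (p : ℤ_[p])]
  congr 1
  · simp
  · apply tsum_congr
    intro i
    rw [pow_succ, show i + 1 + k = i + (k + 1) by ring]
    ring

/-- An additive map from `ℤ_[p]` is determined by its value at `1`. -/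
lemma hom_ext (h : Red p A) (f g : ℤ_[p] →+ A) (h1 : f 1 = g 1) : f = g := by
  ext z
  obtain ⟨Z, n, hZ, hn⟩ := zp_dig z
  have h2 : ∀ (φ : ℤ_[p] →+ A) (m : ℤ), φ (m : ℤ_[p]) = m • φ 1 := by
    intro φ m
    rw [← map_zsmul, zsmul_one]
  have h3 : ∀ i, f (Z i) - g (Z i) = p • (f (Z (i + 1)) - g (Z (i + 1))) := by
    intro i
    rw [hn i, map_add, map_add, h2, h2, h1]
    have h4 : ∀ (φ : ℤ_[p] →+ A) (w : ℤ_[p]), φ (p * w) = p • φ w := by
      intro φ w
      rw [← nsmul_eq_mul, map_nsmul]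
    rw [h4, h4, smul_sub]
    abel
  have h5 := h _ h3 0
  rw [hZ, sub_eq_zero] at h5
  exact h5

/-- Uniqueness of the `ℤ_[p]`-module structure. -/
theorem smul_unique (h : Red p A) (m₁ m₂ : Module ℤ_[p] A) : m₁ = m₂ := by
  apply Module.ext'
  intro z a
  have h1 := hom_ext h (AddMonoidHom.mk' (fun z : ℤ_[p] => m₁.toSMul.smul z a)
      (fun x y => m₁.add_smul x y a)) (AddMonoidHom.mk' (fun z : ℤ_[p] => m₂.toSMul.smul z a)
      (fun x y => m₂.add_smul x y a)) ((m₁.one_smul a).trans (m₂.one_smul a).symm)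
  exact DFunLike.congr_fun h1 z

/-- Partial sums. -/
def Rel (p : ℕ) [Fact p.Prime] {A : Type*} [AddCommGroup A] (a : A) (z : ℤ_[p]) (x : A) : Prop :=
  ∃ (Z : ℕ → ℤ_[p]) (n : ℕ → ℤ) (b : ℕ → A), Z 0 = z ∧ b 0 = x ∧
    (∀ i, Z i = n i + p * Z (i + 1)) ∧ ∀ i, b i = n i • a + p • b (i + 1)

lemma rel_total (h : ExtC p A) (a : A) (z : ℤ_[p]) : ∃ x, Rel p a z x := by
  obtain ⟨Z, n, hZ, hn⟩ := zp_dig z
  obtain ⟨b, hb, _⟩ := h (fun i => n i • a)
  exact ⟨b 0, Z, n, b, hZ, rfl, hn, hb⟩

lemma rel_zero (h : ExtC p A) {a x : A} (hx : Rel p a 0 x) : x = 0 := by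
  obtain ⟨Z, n, b, hZ, rfl, hn, hb⟩ := hx
  have h1 : ∀ i, ∃ y : ℤ, Z i = y := by
    intro i
    induction i with
    | zero => exact ⟨0, by rw [hZ]; simp⟩
    | succ i ih =>
      obtain ⟨y, hy⟩ := ih
      have h2 : (p : ℤ_[p]) ∣ ((y - n i : ℤ) : ℤ_[p]) := by
        refine ⟨Z (i + 1), ?_⟩
        push_cast
        rw [← hy, hn i]
        ring
      have h3 : (p : ℤ) ∣ y - n i := by
        have := (PadicInt.norm_int_lt_one_iff_dvd (p := p) (y - n i)).1 ?_
        · exact this
        · have h4 := (PadicInt.norm_lt_one_iff_dvd (p := p) ((y - n i : ℤ) : ℤ_[p])).2 h2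
          exact h4
      obtain ⟨w, hw⟩ := h3
      refine ⟨w, ?_⟩
      have hp0 : (p : ℤ_[p]) ≠ 0 := by
        exact_mod_cast (Fact.out : p.Prime).ne_zero
      apply mul_left_cancel₀ hp0
      have h5 : (p : ℤ_[p]) * Z (i + 1) = ((y - n i : ℤ) : ℤ_[p]) := by
        push_cast
        rw [← hy, hn i]
        ring
      rw [h5, hw]
      push_cast
      ring
  choose y hy using h1
  have hy0 : y 0 = 0 := by
    have := hy 0
    rw [hZ] at this
    exact_mod_cast this.symm
  have hrec : ∀ i, y i = n i + p * y (i + 1) := by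
    intro i
    have := hn i
    rw [hy, hy] at this
    exact_mod_cast this
  have h2 := (h (fun i => n i • a)).unique hb (y₂ := fun i => y i • a) (by
    intro i
    rw [hrec i, add_smul, mul_smul]
    simp)
  rw [h2]
  simp [hy0]

lemma rel_sub {a x x' : A} {z z' : ℤ_[p]} (h : Rel p a z x) (h' : Rel p a z' x') :
    Rel p a (z - z') (x - x') := by
  obtain ⟨Z, n, b, rfl, rfl, hn, hb⟩ := h
  obtain ⟨Z', n', b', rfl, rfl, hn', hb'⟩ := h'
  refine ⟨fun i => Z i - Z' i, fun i => n i - n' i, fun i => b i - b' i, rfl, rfl, ?_, ?_⟩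
  · intro i
    simp only
    rw [hn i, hn' i]
    push_cast
    ring
  · intro i
    simp only
    rw [hb i, hb' i, sub_smul, smul_sub]
    abel

lemma rel_add {a x x' : A} {z z' : ℤ_[p]} (h : Rel p a z x) (h' : Rel p a z' x') :
    Rel p a (z + z') (x + x') := by
  obtain ⟨Z, n, b, rfl, rfl, hn, hb⟩ := h
  obtain ⟨Z', n', b', rfl, rfl, hn', hb'⟩ := h'
  refine ⟨fun i => Z i + Z' i, fun i => n i + n' i, fun i => b i + b' i, rfl, rfl, ?_, ?_⟩
  · intro i
    simp only
    rw [hn i, hn' i]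
    push_cast
    ring
  · intro i
    simp only
    rw [hb i, hb' i, add_smul, smul_add]
    abel

lemma rel_unique (h : ExtC p A) {a x x' : A} {z : ℤ_[p]} (hx : Rel p a z x)
    (hx' : Rel p a z x') : x = x' := by
  have h1 := rel_sub hx hx'
  rw [sub_self] at h1
  exact sub_eq_zero.1 (rel_zero h h1)

lemma rel_one (a : A) : Rel p a 1 a := by
  refine ⟨fun i => if i = 0 then 1 else 0, fun i => if i = 0 then 1 else 0,
    fun i => if i = 0 then a else 0, by simp, by simp, ?_, ?_⟩
  · intro i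
    by_cases hi : i = 0 <;> simp [hi]
  · intro i
    by_cases hi : i = 0 <;> simp [hi]

/-- The additive map with value `a` at `1`. -/
lemma exists_hom (h : ExtC p A) (a : A) : ∃ f : ℤ_[p] →+ A, f 1 = a := by
  choose f hf using rel_total h a
  refine ⟨AddMonoidHom.mk' f (fun x y => rel_unique h (hf (x + y)) (rel_add (hf x) (hf y))), ?_⟩
  exact rel_unique h (hf 1) (rel_one a)

/-- The `ℤ_[p]`-module structure of a derived complete group. -/
@[reducible] noncomputable def zpModule (h : ExtC p A) : Module ℤ_[p] A :=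
  let f : A → (ℤ_[p] →+ A) := fun a => (exists_hom h a).choose
  have hf : ∀ a, f a 1 = a := fun a => (exists_hom h a).choose_spec
  { smul := fun z a => f a z
    one_smul := fun a => hf a
    mul_smul := fun z w a => by
      change f a (z * w) = f (f a w) z
      have h1 : (f a).comp (AddMonoidHom.mulRight w) = f (f a w) := by
        apply hom_ext h.red
        rw [hf]
        change f a (1 * w) = f a w
        rw [one_mul]
      rw [← h1]
      rfl
    smul_zero := fun z => by
      change f 0 z = 0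
      have h1 : f 0 = 0 := by
        apply hom_ext h.red
        rw [hf]
        rfl
      rw [h1]
      rfl
    smul_add := fun z a b => by
      change f (a + b) z = f a z + f b z
      have h1 : f (a + b) = f a + f b := by
        apply hom_ext h.red
        rw [hf, AddMonoidHom.add_apply, hf, hf]
      rw [h1]
      rfl
    add_smul := fun z w a => map_add (f a) z w
    zero_smul := fun a => map_zero (f a) }

/-- Finitely generated when `A / p A` is finite. -/
theorem finite_of_quot [Module ℤ_[p] A] (h : Red p A)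
    (hf : Finite (A ⧸ (zsmulAddGroupHom (p : ℤ) : A →+ A).range)) : Module.Finite ℤ_[p] A := by
  classical
  set H := (zsmulAddGroupHom (p : ℤ) : A →+ A).range with hH
  let _ := Fintype.ofFinite (A ⧸ H)
  have h1 : ∀ x : A, ∃ y : A, x = (Quotient.out (QuotientAddGroup.mk x : A ⧸ H)) + p • y := by
    intro x
    have h2 : -(Quotient.out (QuotientAddGroup.mk x : A ⧸ H)) + x ∈ H := by
      rw [← QuotientAddGroup.eq]
      exact QuotientAddGroup.out_eq' _
    obtain ⟨y, hy⟩ := h2
    refine ⟨y, ?_⟩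
    have h3 : p • y = -(Quotient.out (QuotientAddGroup.mk x : A ⧸ H)) + x := by
      rw [← hy]
      simp
    rw [h3]
    abel
  choose nx hnx using h1
  refine ⟨⟨Finset.univ.image (fun q : A ⧸ H => Quotient.out q), ?_⟩⟩
  rw [eq_top_iff]
  intro x _
  choose b hb using fun q : A ⧸ H => zp_seq (p := p) (fun i =>
    if (QuotientAddGroup.mk (nx^[i] x) : A ⧸ H) = q then 1 else 0)
  have h2 : ∀ i, (∑ q : A ⧸ H, b q i • Quotient.out q) - nx^[i] x =
      p • ((∑ q : A ⧸ H, b q (i + 1) • Quotient.out q) - nx^[i + 1] x) := by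
    intro i
    have h3 : ∑ q : A ⧸ H, b q i • Quotient.out q =
        Quotient.out (QuotientAddGroup.mk (nx^[i] x) : A ⧸ H) +
          p • ∑ q : A ⧸ H, b q (i + 1) • Quotient.out q := by
      have h4 : ∀ q : A ⧸ H, b q i • Quotient.out q =
          (if (QuotientAddGroup.mk (nx^[i] x) : A ⧸ H) = q then Quotient.out q else 0) +
            p • (b q (i + 1) • Quotient.out q) := by
        intro q
        rw [hb q i, add_smul, mul_smul, ite_smul, one_smul, zero_smul, Nat.cast_smul_eq_nsmul]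
      rw [Finset.sum_congr rfl (fun q _ => h4 q), Finset.sum_add_distrib, Finset.smul_sum]
      congr 1
      rw [Finset.sum_ite_eq]
      simp
    rw [h3, smul_sub]
    have h5 := hnx (nx^[i] x)
    rw [← Function.iterate_succ_apply' nx i x] at h5
    generalize hg : Quotient.out (QuotientAddGroup.mk (nx^[i] x) : A ⧸ H) = g at h5 ⊢
    rw [h5]
    abel
  have h3 := h _ h2 0
  rw [sub_eq_zero] at h3
  change _ = x at h3
  rw [← h3]
  apply Submodule.sum_mem
  intro q _
  apply Submodule.smul_mem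
  apply Submodule.subset_span
  rw [Finset.mem_coe, Finset.mem_image]
  exact ⟨q, Finset.mem_univ q, rfl⟩

/-- Row D1: a derived `p`-complete group with finite `A / p A` is a finitely generated
`ℤ_[p]`-module (the module structure is unique: `smul_unique`). -/
theorem fg_of_extC (h : ∀ a : ℕ → A, ∃! b : ℕ → A, ∀ n, b n = a n + (p : ℤ) • b (n + 1))
    (hc : Finite (A ⧸ (zsmulAddGroupHom (p : ℤ) : A →+ A).range)) :
    ∃ _ : Module ℤ_[p] A, Module.Finite ℤ_[p] A := by
  have h1 : ExtC p A := by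
    intro a
    have h2 := h a
    simp only [natCast_zsmul] at h2
    exact h2
  let _ := zpModule h1
  exact ⟨zpModule h1, finite_of_quot h1.red hc⟩

/-- The module structure in row D1 is unique. -/
theorem unique_of_extC (h : ∀ a : ℕ → A, ∃! b : ℕ → A, ∀ n, b n = a n + (p : ℤ) • b (n + 1))
    (m₁ m₂ : Module ℤ_[p] A) : m₁ = m₂ := by
  have h1 : ExtC p A := by
    intro a
    have h2 := h a
    simp only [natCast_zsmul] at h2
    exact h2
  exact smul_unique h1.red m₁ m₂

end Vale.Agent.P261.H183
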